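import Vale.Agent.P057.Main

/-!
An improvement of the lower bound of Rankin and O'Bryant for `r_k(N)`.
-/

namespace Vale.Agent.Results.P057.RankinConstant

open Filter
open Vale.Agent.P057

theorem result :
    (∀ k n q : ℕ, q.Prime → 2 ^ (n - 1) + 2 ≤ q → q ≤ k → k ≤ 2 ^ n →
      ∀ κ : ℝ, (2 * 2 ^ (n - 1) / ((k : ℝ) + 2 ^ (n - 1))) ^ ((1 : ℝ) / n) < κ →
      ∀ᶠ N : ℕ in atTop,
        (N : ℝ) * (2 : ℝ) ^
            (-(κ * n * (2 : ℝ) ^ (((n : ℝ) - 1) / 2) * Real.logb 2 N ^ ((1 : ℝ) / n)))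
          ≤ r k N) ∧
    (∀ n : ℕ, 3 ≤ n → ∀ κ : ℝ, (2 / 3 : ℝ) ^ ((1 : ℝ) / n) < κ →
      ∀ᶠ N : ℕ in atTop,
        (N : ℝ) * (2 : ℝ) ^
            (-(κ * n * (2 : ℝ) ^ (((n : ℝ) - 1) / 2) * Real.logb 2 N ^ ((1 : ℝ) / n)))
          ≤ r (2 ^ n) N) := by
  refine ⟨fun k n q hq h1 h2 hk κ hκ => ?_, fun n hn κ hκ => r_two_pow_lower hn hκ⟩
  refine r_lower (Nat.one_le_iff_ne_zero.2 fun h => ?_) hq h1 h2 hκ
  subst h
  simp at h1 hk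
  omega

end Vale.Agent.Results.P057.RankinConstant
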