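import Vale.Agent.P057.Sixth.Main

/-!
An improved upper bound for `r₃(N)`: exponent `1/6`, up to a `log log` factor.
-/

namespace Vale.Agent.Results.P057.RothSixth

open Filter
open Vale.Agent.P057

theorem result :
    ∃ c : ℝ, 0 < c ∧ ∀ᶠ N : ℕ in atTop,
      (r 3 N : ℝ) ≤
        (N : ℝ) * Real.exp (-c * (Real.log N / Real.log (Real.log N)) ^ ((1 : ℝ) / 6)) :=
  Sixth.r_three_le

end Vale.Agent.Results.P057.RothSixth
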